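import Crest.Agent.N250.Defs

/-!
# Row 250, Prelude bridge (helper37): scaling of area measures, uniform weak convergence
-/

set_option autoImplicit false
open MeasureTheory Set Filter Topology
open scoped ContDiff InnerProductSpace Pointwise
open Crest.GeometryTopology.MCF

noncomputable section

namespace Crest.Agent.N250.Br

/-- weak convergence against smooth test functions is uniform on compact families of continuous
test functions -/
theorem unif_of_weak {α : Type} {l : Filter α} (μ : α → Measure E) (ν : Measure E)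
    (hμ : ∀ᶠ k in l, IsFiniteMeasureOnCompacts (μ k)) [IsFiniteMeasureOnCompacts ν]
    (h : ∀ f : E → ℝ, ContDiff ℝ ∞ f → HasCompactSupport f →
      Tendsto (fun k => ∫ y, f y ∂μ k) l (𝓝 (∫ y, f y ∂ν)))
    (g : ℝ × E → ℝ) (hg : Continuous g) {K : Set ℝ} (hK : IsCompact K) {R : ℝ} (hR0 : 0 < R)
    (hR : ∀ s ∈ K, ∀ y, R ≤ ‖y‖ → g (s, y) = 0) {ε : ℝ} (hε : 0 < ε) :
    ∀ᶠ k in l, ∀ s ∈ K, |∫ y, g (s, y) ∂μ k - ∫ y, g (s, y) ∂ν| < ε := by
  let χ : ContDiffBump (0 : E) := ⟨R, R + 1, hR0, by linarith⟩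
  have hχ1 : ∀ y : E, ‖y‖ ≤ R → χ y = 1 := fun y hy =>
    χ.one_of_mem_closedBall (by simpa using hy)
  set m := ∫ y, χ y ∂ν with hm
  have hm0 : 0 ≤ m := integral_nonneg fun y => χ.nonneg
  have hχ : ∀ᶠ k in l, ∫ y, χ y ∂μ k < m + 1 :=
    (h χ χ.contDiff χ.hasCompactSupport).eventually (gt_mem_nhds (by linarith))
  set η := ε / (8 * (m + 1)) with hη
  have hη0 : 0 < η := by positivity
  have hcs : ∀ f : E → ℝ, (∀ y, R ≤ ‖y‖ → f y = 0) → HasCompactSupport f := fun f hf =>
    HasCompactSupport.intro (isCompact_closedBall (0 : E) R) fun y hy =>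
      hf y (by simp at hy; exact hy.le)
  -- comparison of integrals
  have cmp : ∀ (ρ : Measure E) [IsFiniteMeasureOnCompacts ρ] (u v : E → ℝ), Continuous u →
      Continuous v → (∀ y, R ≤ ‖y‖ → u y = 0) → (∀ y, R ≤ ‖y‖ → v y = 0) →
      (∀ y, ‖y‖ ≤ R → |u y - v y| ≤ 2 * η) →
      |∫ y, u y ∂ρ - ∫ y, v y ∂ρ| ≤ 2 * η * ∫ y, χ y ∂ρ := by
    intro ρ _ u v hu hv hu0 hv0 huv
    have iu : Integrable u ρ := hu.integrable_of_hasCompactSupport (hcs u hu0)
    have iv : Integrable v ρ := hv.integrable_of_hasCompactSupport (hcs v hv0)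
    have iχ : Integrable χ ρ := χ.continuous.integrable_of_hasCompactSupport χ.hasCompactSupport
    rw [← integral_sub iu iv, ← integral_const_mul]
    refine (abs_integral_le_integral_abs).trans (integral_mono (iu.sub iv).abs (iχ.const_mul _) ?_)
    intro y
    by_cases hy : ‖y‖ ≤ R
    · simpa [hχ1 y hy] using huv y hy
    · have hy' : R ≤ ‖y‖ := (not_le.1 hy).le
      simp only [hu0 y hy', hv0 y hy', sub_zero, abs_zero]
      exact mul_nonneg (by positivity) χ.nonneg
  refine IsCompact.induction_on hK (p := fun U => ∀ᶠ k in l, ∀ s ∈ U, s ∈ K →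
      |∫ y, g (s, y) ∂μ k - ∫ y, g (s, y) ∂ν| < ε) ?_ ?_ ?_ ?_ |>.mono fun k hk s hs => hk s hs hs
  · simp
  · intro U V hUV hV
    exact hV.mono fun k hk s hs => hk s (hUV hs)
  · intro U V hU hV
    filter_upwards [hU, hV] with k h1 h2 s hs
    exact hs.elim (h1 s) (h2 s)
  · intro s0 hs0
    have hc : ∀ s, Continuous fun y : E => g (s, y) := fun s => hg.comp (by fun_prop)
    obtain ⟨w, hw, hw1, hw2⟩ := (hc s0).exists_contDiff_approx (n := ⊤) (ε := fun _ => η)
      continuous_const (fun _ => hη0)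
    have hw0 : ∀ y, R ≤ ‖y‖ → w y = 0 := fun y hy => by
      by_contra hn
      exact hw2 hn (hR s0 hs0 y hy)
    have hnear : ∀ᶠ s in 𝓝 s0, ∀ y ∈ Metric.closedBall (0 : E) R, |g (s, y) - g (s0, y)| < η := by
      refine (isCompact_closedBall (0 : E) R).eventually_forall_of_forall_eventually
        (P := fun s y => |g (s, y) - g (s0, y)| < η) fun y _ => ?_
      have hcont : Continuous fun z : ℝ × E => |g (z.1, z.2) - g (s0, z.2)| := by fun_prop
      exact hcont.continuousAt.eventually (gt_mem_nhds (by simpa using hη0))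
    refine ⟨_, mem_nhdsWithin_of_mem_nhds hnear, ?_⟩
    have hw3 := (Metric.tendsto_nhds.1 (h w hw (hcs w hw0))) (ε / 2) (by positivity)
    filter_upwards [hμ, hχ, hw3] with k hk h1 h2 s hs hsK
    have huv : ∀ y, ‖y‖ ≤ R → |g (s, y) - w y| ≤ 2 * η := fun y hy => by
      have a1 := hs y (by simpa using hy)
      have a2 := hw1 y
      rw [Real.dist_eq] at a2
      rw [abs_lt] at a1 a2
      rw [abs_le]
      constructor <;> linarith [a1.1, a1.2, a2.1, a2.2]
    have b1 := cmp (μ k) _ w (hc s) hw.continuous (hR s hsK) hw0 huv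
    have b2 := cmp ν _ w (hc s) hw.continuous (hR s hsK) hw0 huv
    rw [Real.dist_eq] at h2
    have b3 : 2 * η * ∫ y, χ y ∂μ k ≤ 2 * η * (m + 1) :=
      mul_le_mul_of_nonneg_left h1.le (by positivity)
    have b4 : 2 * η * m ≤ 2 * η * (m + 1) := mul_le_mul_of_nonneg_left (by linarith) (by positivity)
    have b5 : 2 * η * (m + 1) = ε / 4 := by rw [hη]; field_simp; ring
    rw [abs_lt] at h2 ⊢
    rw [abs_le] at b1 b2
    constructor <;> linarith [b1.1, b1.2, b2.1, b2.2, h2.1, h2.2]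

/-- the normalising constant -/
def cH : ℝ := ((Measure.addHaarScalarFactor (volume : Measure (EuclideanSpace ℝ (Fin 2)))
  μH[((2 : ℕ) : ℝ)] : NNReal) : ℝ)

theorem cH_pos : 0 < cH := by
  have := Measure.addHaarScalarFactor_volume_hausdorffMeasure_ne_zero 2
  unfold cH
  positivity

theorem int_muHE (A : Set E) (f : E → ℝ) :
    ∫ y, f y ∂((μHE[2] : Measure E).restrict A) = cH * ∫ y, f y ∂(areaMeasure A) := by
  rw [Measure.euclideanHausdorffMeasure_def, Measure.restrict_smul, integral_smul_nnreal_measure]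
  simp only [areaMeasure, cH, Nat.cast_ofNat]
  rfl




end Crest.Agent.N250.Br

end
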